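import Vale.Agent.P223.X.All
import Vale.Agent.P223.X.IntM
import Vale.Agent.P223.H959.F2
import Vale.Agent.P223.H959.All
import Vale.Agent.P223.H209.G1
import Vale.Agent.P223.H209.G3
import Vale.Agent.P223.R2.H84.NormG

/-! P223, modifications: assembly of the blocks (helper84). -/

namespace Vale.Agent.P223.R2.H84.Asm

open scoped ContDiff Topology ENNReal Manifold
open MeasureTheory Vale.Agent.P223.H Vale.Agent.P223.X Vale.Agent.P223.X.WtX
  Vale.Agent.P223.X.DensX Vale.Agent.P223.X.NormX Vale.Agent.P223.R2.H84 Set Filter Function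

/-- all blocks -/
structure Blk : Prop where
  fp : SpecFP
  pull : SpecPull
  pt : SpecPt
  svwt : SpecSvWt
  good : SpecGood
  area : SpecAreaLe
  box : SpecBoxMap

section
variable {n : ℕ} {M X Γ I : Type} [TopologicalSpace M] [TopologicalSpace X] [Group Γ]
    [MulAction Γ X] {C : Cov n M X Γ I} {G : I → E n → Matrix (Fin n) (Fin n) ℝ}

theorem cont_gsX (hG : MetX C G) {f : X → ℝ} (hf : C.Ck 1 f) : Continuous (gsX C G f) := by
  refine Ck_continuous (C := C) fun γ i => ?_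
  rw [rep_gsX hG]
  exact Bas2.contDiff_gradSq (hG.smooth i) (hG.pos i) (m := 0) (hf γ i) (by norm_num)

/-- the function `Sum |d phi|` on the covering -/
noncomputable def SS (C : Cov n M X Γ I) (G : I → E n → Matrix (Fin n) (Fin n) ℝ) (φ : X → ℝ)
    (x : X) : ℝ := ∑ᶠ γ : Γ, √(gsX C G φ (γ • x))

theorem SS_inv (φ : X → ℝ) (γ : Γ) (x : X) : SS C G φ (γ • x) = SS C G φ x := by
  unfold SS
  simp only [smul_smul]
  exact finsum_comp_equiv (Equiv.mulRight γ) (f := fun δ : Γ => √(gsX C G φ (δ • x)))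

theorem SS_eq (hG : MetX C G) {φ : X → ℝ} (hc : HasCompactSupport φ) (x : X) :
    ENNReal.ofReal (SS C G φ x ^ n) = (∑' γ : Γ, sg C G φ (γ • x)) ^ n := by
  have hfin : (Function.support fun γ : Γ => √(gsX C G φ (γ • x))).Finite := by
    refine (finite_orbit C hc x).subset fun γ hγ => ?_
    by_contra hcon
    apply hγ
    show √(gsX C G φ (γ • x)) = 0
    rw [gsX_supp hG hcon, Real.sqrt_zero]
  have hs : SS C G φ x = ∑ γ ∈ hfin.toFinset, √(gsX C G φ (γ • x)) :=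
    finsum_eq_sum_of_support_subset _ (by simp)
  have hnn : 0 ≤ SS C G φ x := by
    rw [hs]; exact Finset.sum_nonneg fun γ _ => Real.sqrt_nonneg _
  rw [ENNReal.ofReal_pow hnn]
  congr 1
  rw [hs, ENNReal.ofReal_sum_of_nonneg fun γ _ => Real.sqrt_nonneg _]
  symm
  refine tsum_eq_sum fun γ hγ => ?_
  have : √(gsX C G φ (γ • x)) = 0 := by simpa using hγ
  rw [sg, this, ENNReal.ofReal_zero]

theorem cont_SS (hG : MetX C G) {φ : X → ℝ} (h1 : C.Ck 1 φ) (hc : HasCompactSupport φ) :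
    Continuous (SS C G φ) := by
  have hL := Vale.Agent.P223.X.Y4.locallyFinite C (K := tsupport φ) hc
  have h2 : SS C G φ = fun x => ∑ᶠ γ : Γ, √(gsX C G φ (γ⁻¹ • x)) := by
    funext x
    exact (finsum_comp_equiv (Equiv.inv Γ) (f := fun δ : Γ => √(gsX C G φ (δ • x)))).symm
  rw [h2]
  refine continuous_finsum (fun γ => ?_) (hL.subset fun γ x hx => ?_)
  · exact Real.continuous_sqrt.comp ((cont_gsX hG h1).comp (C.cont γ⁻¹))
  · by_contra hcon
    apply hx
    show √(gsX C G φ (γ⁻¹ • x)) = 0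
    rw [gsX_supp hG hcon, Real.sqrt_zero]

end

section
variable {n : ℕ} {A : Matrix (Fin n) (Fin n) ℝ} {X Y : Type} [TopologicalSpace X]
  [TopologicalSpace Y] {c : X → K.Ch n X} {c' : Y → K.Ch n Y} {f : Y → X}

/-- holomorphic maps are smooth -/
theorem hol_smooth (hf : Hol A c' c f) (a : Y) (b : X) (x : Fin n → ℝ) (hx : x ∈ (c' a).target)
    (hx' : f ((c' a).symm x) ∈ (c b).source) :
    ContDiffAt ℝ ∞ (fun z => c b (f ((c' a).symm z))) x :=
  contDiffAt_pi.2 fun i => (hf.2 a b ((c' a).symm x) x _ ⟨(c' a).map_target hx,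
    (c' a).right_inv hx⟩ ⟨hx', rfl⟩).1 i

end

/-- closed manifolds are path connected -/
theorem pathConn {n : ℕ} {Y : Type} [TopologicalSpace Y] [ConnectedSpace Y] {c : Y → J.Ch n Y}
    (hc : J.Atl c) : PathConnectedSpace Y := by
  let _ : ChartedSpace (Fin n → ℝ) Y :=
    { atlas := Set.range c
      chartAt := c
      mem_chart_source := fun x => (hc x).1
      chart_mem_atlas := fun x => ⟨x, rfl⟩ }
  have : LocallyPathConnectedSpace Y := ChartedSpace.locallyPathConnectedSpace (Fin n → ℝ) Y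
  exact pathConnectedSpace_iff_connectedSpace.2 inferInstance

/-- The simplicial volume of `Y` is bounded by `κ^n d vol(X)`. -/
theorem sv_le (hB : Blk) {n : ℕ} (hn : 4 ≤ n) {A : Matrix (Fin n) (Fin n) ℝ} (hA : A * A = -1)
    {X Y : Type} [TopologicalSpace X] [T2Space X] [CompactSpace X] [ConnectedSpace X]
    [MeasurableSpace X] [BorelSpace X] [TopologicalSpace Y] [T2Space Y] [CompactSpace Y]
    [ConnectedSpace Y] [MeasurableSpace Y] [BorelSpace Y] {c : X → K.Ch n X} {c' : Y → K.Ch n Y}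
    (hc : K.Atl A c) (hc' : K.Atl A c') (f : C(Y, X)) (d : ℕ) (hf : Hol A c' c f)
    (hd : DegEq c' c f d) (hpi : PiIso f)
    {g : Y → (Fin n → ℝ) → Matrix (Fin n) (Fin n) ℝ}
    {g0 : X → (Fin n → ℝ) → Matrix (Fin n) (Fin n) ℝ}
    {μ : Measure Y} {μ0 : Measure X} (hg : K.Herm A c' g) (hμ : K.Vol c' g μ)
    (hg0 : K.Herm A c g0) (hμ0 : K.Vol c g0 μ0)
    (hR : ∀ a p x, K.At (c a) p x → (g0 a x + K.ric (g0 a) x).PosSemidef) :
    K.sv c' ≤ ENNReal.ofReal (J.kap n ^ n) * (d * μ0 Set.univ) := by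
  have hu := Vale.Agent.P223.X.hu
  have hb := Vale.Agent.P223.X.hb
  have hn1 : 1 ≤ n := by omega
  have hJ : J.Atl c := H959.atl hA hc hg0
  have hJ' : J.Atl c' := H959.atl hA hc' hg
  have hM : J.Met c g0 := H959.met hc hg0
  have hM' : J.Met c' g := H959.met hc' hg
  have hV : J.Vol c g0 μ0 := H959.vol hμ0
  have hV' : J.Vol c' g μ := H959.vol hμ
  have hRic := H959.ricGe hg0 hR
  have := pathConn hJ'
  obtain ⟨I, fI, ⟨B⟩⟩ := hu.box n X c hJ
  obtain ⟨I', fI', ⟨B'⟩⟩ := hu.box n Y c' hJ'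
  obtain ⟨Z, Γ, tZ, gΓ, aΓ, π, scZ, t2Z, h1, h2, h3, h4, h5⟩ := hu.uc n X fun m => by
    obtain ⟨i, y, -, h⟩ := B.cover m
    exact ⟨B.β i, hu.emb n X I c B i, y, h⟩
  obtain ⟨C, hCπ, hC⟩ := hu.cov n X Z Γ I c B π hJ h1 h2 h3 h4 h5
  obtain ⟨W, tW, aW, π', F, scW, t2W, k1, k2, k3, k4, k5, hF1, hF2, hF3⟩ :=
    hB.fp Y X Z Γ f π h1 h2 h3 h4 h5 hpi
  obtain ⟨C', hCπ', hC'⟩ := hu.cov n Y W Γ I' c' B' π' hJ' k1 k2 k3 k4 k5
  have hfπ : ∀ w, C.π (F w) = f (C'.π w) := fun w => by rw [hCπ, hCπ']; exact hF2 w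
  obtain ⟨hO, hΦ⟩ := hB.box n X Y Z W Γ I I' c c' B B' C C' f F hJ hJ' hC hC' hF1 hfπ hF3
    (hol_smooth hf)
  obtain ⟨q, hqc, hq0, hqA, hqd⟩ := hB.area n A X Y c c' f d g g0 μ μ0 hA hc hc' hg hg0 hμ hμ0 hf hd
  have hG : MetX C (B.G g0) := (hu.met n X Z Γ I c B C hJ hC).1 g0 hM
  have hG' : MetX C' (B'.G g) := (hu.met n Y W Γ I' c' B' C' hJ' hC').1 g hM'
  have hν' : VolM C' (B'.G g) μ := hu.vol n Y W Γ I' c' B' C' g μ hJ' hC' hM' hV'
  have : Nonempty W := inferInstance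
  have hinf := hu.inf n Y W Γ I' C' hn1
  obtain ⟨χ, hχ⟩ := hb.part n Y W Γ I' C'
  let _ : MeasurableSpace Z := borel Z
  have : BorelSpace Z := ⟨rfl⟩
  set κ : ℝ≥0∞ := ENNReal.ofReal (J.kap n ^ n) with hκ
  -- the main estimate
  have key : ∀ δ : ℝ, 0 < δ → svX C' ≤ d * (κ * μ0 Set.univ + ENNReal.ofReal δ) := by
    intro δ hδ
    obtain ⟨P, hP, hPE⟩ := hB.good n hn X c hJ Z Γ I B C hC g0 μ0 hM hV hRic δ hδ
    obtain ⟨P', hP'⟩ := hB.pull n X Y Z W Γ I I' C C' F hO P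
    set φ := P.φ () with hφ
    set ν : Measure Y := μ.withDensity fun p => ENNReal.ofReal (q p) with hν
    set H : X → ℝ≥0∞ := fun m => ENNReal.ofReal (C.dn (SS C (B.G g0) φ) m ^ n) with hH
    have hHc : Continuous fun m => C.dn (SS C (B.G g0) φ) m ^ n :=
      (IntM.continuous_dn C (fun γ x => SS_inv φ γ x) (cont_SS hG (P.smooth ()) (P.supp ()))).pow n
    have hHm : Measurable H := hHc.measurable.ennreal_ofReal
    have hHπ : ∀ z, H (C.π z) = (∑' γ : Γ, sg C (B.G g0) φ (γ • z)) ^ n := by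
      intro z
      simp only [hH]
      rw [IntM.dn_eq C fun γ x => SS_inv φ γ x, SS_eq hG (P.supp ())]
    have e1 := hB.svwt n Y W Γ I' C' χ hn1 hχ hinf P'
    have e2 : ENNReal.ofReal (∑ᶠ l ∈ {l : Fin (n + 1) → Γ × Unit | (l 0).1 = 1}, |P'.wt χ l|) ≤
        ∫⁻ m, H (f m) ∂ν := by
      refine NormG.main n Y W Γ I' C' χ ν (fun i y => ENNReal.ofReal (q (B'.β i y) *
        dens (B'.G g i) y)) hn1 hχ (fun i k => ?_) P' (fun w => ?_)
        (fun w => sg C (B.G g0) φ (F w)) (fun l hl i γ y => ?_) (fun m => H (f m)) (fun w => ?_)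
      · have h6 := lintegral_chart hG' hν' i fun m => ENNReal.ofReal (q m) * k m
        have h7 : ∫⁻ m in Set.range fun y => C'.π (C'.ψ i y), k m ∂ν =
            ∫⁻ m in Set.range fun y => C'.π (C'.ψ i y), ENNReal.ofReal (q m) * k m ∂μ := by
          rw [hν, setLIntegral_withDensity_eq_setLIntegral_mul_non_measurable]
          · rfl
          · exact hqc.measurable.ennreal_ofReal
          · exact (emb_pi C' i).isOpen_range.measurableSet
          · exact Eventually.of_forall fun _ => ENNReal.ofReal_lt_top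
        rw [h7, ← h6]
        refine lintegral_congr fun y => ?_
        rw [← hC' i y, ENNReal.ofReal_mul (hq0 _)]
        ring
      · rw [hP']
        exact hP _
      · obtain ⟨j, γ₀, Φ, hΦ1, hΦ2, hΦ3⟩ := hΦ i y
        have h6 := hΦ3 g g0 q hM' hM hqd
        have h7 := hB.pt n X Y Z W Γ I I' C C' F hO (B.G g0) hG P P' hP hP' l hl i γ y j γ₀ Φ
          (hΦ1.differentiableAt (by simp)) hΦ2
        rw [h6] at h7
        exact h7
      · rw [← hfπ, hHπ]
        simp only [hF1]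
    have e3 : ∫⁻ m, H (f m) ∂ν ≤ d * ∫⁻ x, H x ∂μ0 := by
      refine le_trans (le_of_eq ?_) (hqA H hHm)
      rw [hν, lintegral_withDensity_eq_lintegral_mul_non_measurable]
      · exact lintegral_congr fun m => mul_comm (ENNReal.ofReal (q m)) (H (f m))
      · exact hqc.measurable.ennreal_ofReal
      · exact Eventually.of_forall fun _ => ENNReal.ofReal_lt_top
    exact e1.trans (e2.trans (e3.trans (mul_le_mul_right hPE _)))
  have h8 : svX C' ≤ κ * (d * μ0 Set.univ) := by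
    refine ENNReal.le_of_forall_pos_le_add fun δ hδ _ => ?_
    have hd1 : (0 : ℝ) < d + 1 := by positivity
    have h9 := key (δ / (d + 1)) (by positivity)
    refine h9.trans ?_
    rw [mul_add]
    refine add_le_add (le_of_eq (by ring)) ?_
    calc (d : ℝ≥0∞) * ENNReal.ofReal (δ / (d + 1))
        = ENNReal.ofReal (d * (δ / (d + 1))) := by
          rw [ENNReal.ofReal_mul (by positivity), ENNReal.ofReal_natCast]
      _ ≤ ENNReal.ofReal δ := by
          refine ENNReal.ofReal_le_ofReal ?_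
          rw [mul_div_assoc', div_le_iff₀ hd1]
          have : (0 : ℝ) < δ := by exact_mod_cast hδ
          nlinarith only [this]
      _ = δ := ENNReal.ofReal_coe_nnreal
  exact H959.sv_le.trans ((hu.sv n Y W Γ I' c' B' C' hJ' hC').trans h8)

/-- The inequality for closed complex manifolds over closed Kähler manifolds with nef canonical
bundle. -/
theorem main (hBk : Blk) {m : ℕ} (hm : 2 ≤ m) {X : Type}
    [TopologicalSpace X] [T2Space X] [CompactSpace X] [ConnectedSpace X]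
    [ChartedSpace (P272.K.Cm m) X] [IsManifold 𝓘(ℂ, P272.K.Cm m) ω X]
    {w : P272.K.Chart m X → P272.K.Cm m → Matrix (Fin m) (Fin m) ℂ} (hw : P272.K.IsKahler w)
    (hnef : P272.K.NefCanonical w 0)
    {d : ℕ} {Y : Type} [TopologicalSpace Y] [T2Space Y] [CompactSpace Y] [ConnectedSpace Y]
    [MeasurableSpace Y] [BorelSpace Y] {c' : Y → K.Ch (m + m) Y} (hY : K.Atl (H959.stdJ m) c')
    (f : C(Y, X)) (hf : Hol (H959.stdJ m) c' (H959.realAtlas m X) f)
    (hd : DegEq c' (H959.realAtlas m X) f d) (hpi : PiIso f)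
    {g : Y → (Fin (m + m) → ℝ) → Matrix (Fin (m + m)) (Fin (m + m)) ℝ}
    (hg : K.Herm (H959.stdJ m) c' g) {μ : Measure Y} (hμ : K.Vol c' g μ) :
    K.sv c' ≤ ENNReal.ofReal (J.kap (m + m) ^ (m + m)) * K.I c' g μ := by
  have hB := H959.blocks
  let _ : MeasurableSpace X := borel X
  have : BorelSpace X := ⟨rfl⟩
  have hn3 : 3 ≤ m + m := by omega
  have hn4 : 4 ≤ m + m := by omega
  have hJ := hB.alg.sqr m
  have hk : 0 < J.kap (m + m) := by
    have h1 : (4 : ℝ) ≤ ((m + m : ℕ) : ℝ) := by exact_mod_cast hn4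
    have h2 : 0 ≤ √((m + m : ℕ) : ℝ) := Real.sqrt_nonneg _
    unfold J.kap
    linarith only [h1, h2]
  set C : ENNReal := ENNReal.ofReal (J.kap (m + m) ^ (m + m)) with hC
  have hC0 : C ≠ 0 := (ENNReal.ofReal_pos.mpr (pow_pos hk _)).ne'
  have hCt : C ≠ ⊤ := ENNReal.ofReal_ne_top
  have hall : ∀ eta : ℝ, 0 < eta → ∃ g0 μ0, K.Herm (H959.stdJ m) (H959.realAtlas m X) g0 ∧
      K.Kah (H959.stdJ m) (H959.realAtlas m X) g0 ∧
      K.RicLe (H959.realAtlas m X) g0 (H959.realG w) eta ∧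
      K.Vol (H959.realAtlas m X) g0 μ0 ∧ K.sv c' ≤ C * (d * μ0 Set.univ) := by
    intro eta heta
    obtain ⟨g0, μ0, h1, h2, h3, h4, h5⟩ := H959.yau hB hw hnef eta heta
    exact ⟨g0, μ0, h1, h2, h3, h5, sv_le hBk hn4 hJ (hB.atl m X) hY f d hf hd hpi hg hμ h1 h5 h4⟩
  rcases Nat.eq_zero_or_pos d with hd0 | hd0
  · obtain ⟨g0, μ0, -, -, -, -, h⟩ := hall 1 one_pos
    rw [hd0, Nat.cast_zero, zero_mul, mul_zero] at h
    exact h.trans zero_le
  have hdne : (d : ℝ≥0∞) ≠ 0 := by exact_mod_cast hd0.ne'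
  have hdt : (d : ℝ≥0∞) ≠ ⊤ := ENNReal.natCast_ne_top d
  have key : ∀ eta : ℝ, 0 < eta → ∃ g0 μ0, K.Herm (H959.stdJ m) (H959.realAtlas m X) g0 ∧
      K.Kah (H959.stdJ m) (H959.realAtlas m X) g0 ∧
      K.RicLe (H959.realAtlas m X) g0 (H959.realG w) eta ∧
      K.Vol (H959.realAtlas m X) g0 μ0 ∧ K.sv c' / C / d ≤ μ0 Set.univ := by
    intro eta heta
    obtain ⟨g0, μ0, h1, h2, h3, h5, h6⟩ := hall eta heta
    refine ⟨g0, μ0, h1, h2, h3, h5, ENNReal.div_le_of_le_mul' (ENNReal.div_le_of_le_mul' ?_)⟩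
    exact h6
  have h7 := H959.Kholo H209.specArea H209.specKHol hn3 hJ (hB.atl m X)
    (hB.herm m X w hw.toIsHermitian) key hY hf (fun p hp => (hd p hp).ge) hg hμ
  calc K.sv c' = C * (d * (K.sv c' / C / d)) := by
        rw [ENNReal.mul_div_cancel hdne hdt, ENNReal.mul_div_cancel hC0 hCt]
    _ ≤ C * K.I c' g μ := mul_le_mul_right h7 _

end Vale.Agent.P223.R2.H84.Asm
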