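import Vale.Agent.P223.R2.H84.Asm2
import Vale.Agent.P223.R2.H187.YauV
import Vale.Agent.P223.H959.Sharp
import Vale.Agent.P223.H959.L2
import Vale.Agent.P223.H959.Zero
import Vale.Agent.P223.H209.Leb

/-! P223, modifications: the final theorem (helper84). -/

namespace Vale.Agent.P223.R2.H84.Fin2

open scoped ContDiff Topology ENNReal Manifold
open MeasureTheory

theorem main (hB : Asm2.Blk2) {m : ℕ} (hm : 2 ≤ m) {X : Type} [TopologicalSpace X] [T2Space X] [CompactSpace X]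
    [ConnectedSpace X] [ChartedSpace (P272.K.Cm m) X] [IsManifold 𝓘(ℂ, P272.K.Cm m) ω X]
    {w : P272.K.Chart m X → P272.K.Cm m → Matrix (Fin m) (Fin m) ℂ} (hw : P272.K.IsKahler w)
    (hnef : P272.K.NefCanonical w 0)
    {φ : P272.K.Chart m X → P272.K.Cm m → ℝ} (hφ : P272.K.IsCanonicalMetric φ) : ∃ I : ℝ, 0 ≤ I ∧
    P272.K.IsIntegral (fun e z => (P272.K.cHess (φ e) z).det.re) I ∧
    ∀ (Y : Type) [TopologicalSpace Y] [T2Space Y] [CompactSpace Y] [ConnectedSpace Y]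
    [MeasurableSpace Y] [BorelSpace Y] (c' : Y → K.Ch (m + m) Y), K.Atl (H959.stdJ m) c' →
    ∀ (f : C(Y, X)) (d : ℕ), Hol (H959.stdJ m) c' (H959.realAtlas m X) f →
    DegEq c' (H959.realAtlas m X) f d →
    ∀ y0 : Y, Function.Surjective (FundamentalGroup.map f y0) →
    Nonempty (GMean (FundamentalGroup.map f y0).ker) →
    ∀ (g : Y → (Fin (m + m) → ℝ) → Matrix (Fin (m + m)) (Fin (m + m)) ℝ),
    K.Herm (H959.stdJ m) c' g → ∀ μ : Measure Y, K.Vol c' g μ →
    K.sv c' ≤ ENNReal.ofReal (J.kap (m + m) ^ (m + m)) * (d * ENNReal.ofReal (2 ^ m * I)) ∧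
    K.sv c' ≤ ENNReal.ofReal (J.kap (m + m) ^ (m + m)) * K.I c' g μ := by
  have hTot := H959.specTot_of H209.specLeb
  obtain ⟨I, h0, h1, -⟩ := H959.sv_le_adjoint H959.blocks hTot hm hw
    H959.closed_zero.isClosedForm (H959.nefForm_zero hw) (H959.nefAdjoint_zero hnef) hφ
  have h1' : P272.K.IsIntegral (fun e z => (P272.K.cHess (φ e) z).det.re) I := by
    simpa only [add_zero] using h1
  refine ⟨I, h0, h1', ?_⟩
  intro Y _ _ _ _ _ _ c' hY f d hf hd y0 hsur ham g hg μ hμ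
  let _ : MeasurableSpace X := borel X
  have : BorelSpace X := ⟨rfl⟩
  set κ : ℝ≥0∞ := ENNReal.ofReal (J.kap (m + m) ^ (m + m)) with hκ
  have hκt : κ ≠ ⊤ := ENNReal.ofReal_ne_top
  have key : ∀ ε : ℝ, 0 < ε → K.sv c' ≤ κ * (d * (ENNReal.ofReal (2 ^ m * I) +
      ENNReal.ofReal ε)) := by
    intro ε hε
    obtain ⟨g0, μ0, e1, e2, e3, e4⟩ := H187.yauV hm hw hnef hφ h1' ε hε
    refine (Asm2.sv_le hB (by omega) (H959.blocks.alg.sqr m) (H959.blocks.atl m X) hY f d hf hd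
      y0 hsur ham hg hμ e1 e3 e2).trans ?_
    gcongr
  have h2 : K.sv c' ≤ κ * (d * ENNReal.ofReal (2 ^ m * I)) := by
    have hc : Filter.Tendsto (fun ε : ℝ => κ * (d * (ENNReal.ofReal (2 ^ m * I) +
        ENNReal.ofReal ε))) (𝓝[>] 0) (𝓝 (κ * (d * (ENNReal.ofReal (2 ^ m * I) +
        ENNReal.ofReal 0)))) := by
      refine Filter.Tendsto.mono_left ?_ nhdsWithin_le_nhds
      refine ENNReal.Tendsto.const_mul (ENNReal.Tendsto.const_mul (tendsto_const_nhds.add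
        (ENNReal.continuous_ofReal.tendsto 0)) (Or.inr (ENNReal.natCast_ne_top d))) (Or.inr hκt)
    rw [ENNReal.ofReal_zero, add_zero] at hc
    refine ge_of_tendsto hc ?_
    filter_upwards [self_mem_nhdsWithin] with ε hε using key ε hε
  exact ⟨h2, h2.trans (mul_le_mul_right (H959.sharp H959.blocks hTot H209.specArea H209.specKHol hm
    hw hnef hφ h1' hY hf (fun p hp => (hd p hp).ge) hg hμ) _)⟩

end Vale.Agent.P223.R2.H84.Fin2
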