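import Vale.Agent.P223.R2.H84.Asm4
import Vale.Agent.P223.R2.H187.AreaLe
import Vale.Agent.P223.R2.H187.YauV
import Vale.Agent.P223.H959.Sharp
import Vale.Agent.P223.H959.L2
import Vale.Agent.P223.H959.Zero
import Vale.Agent.P223.H209.Leb

/-! P223, modifications: the final theorem for all holomorphic maps with amenable kernel on
fundamental groups (helper84). -/

namespace Vale.Agent.P223.R2.H84.Fin4

open scoped ContDiff Topology ENNReal Manifold
open MeasureTheory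

/-- all blocks -/
structure Blk : Prop where
  c : Asm4.BlkC
  locd : SpecLocDeg
  globd : SpecGlobDeg
  holo : SpecHoloFree

/-- holomorphic maps preserve the orientation -/
theorem hol_det {n : ℕ} {A : Matrix (Fin n) (Fin n) ℝ} (hA : A * A = -1) {X Y : Type}
    [TopologicalSpace X] [TopologicalSpace Y] {c : X → K.Ch n X} {c' : Y → K.Ch n Y} {f : Y → X}
    (hf : Hol A c' c f) (a : Y) (b : X) (x : Fin n → ℝ) (hx : x ∈ (c' a).target)
    (hx' : f ((c' a).symm x) ∈ (c b).source) :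
    0 ≤ (fderiv ℝ (fun z => c b (f ((c' a).symm z))) x).det := by
  obtain ⟨h1, h2⟩ := hf.2 a b ((c' a).symm x) x _ ⟨(c' a).map_target hx, (c' a).right_inv hx⟩
    ⟨hx', rfl⟩
  rw [H959.det_fderiv fun i => (h1 i).differentiableAt (by simp)]
  exact H959.det_nonneg_of_comm hA h2

/-- The simplicial volume of `Y` is bounded by `κ^n` times the integral of the relative Jacobian
determinant. -/
theorem sv_le (hB : Blk) {n : ℕ} (hn : 4 ≤ n) {A : Matrix (Fin n) (Fin n) ℝ} (hA : A * A = -1)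
    {X Y : Type} [TopologicalSpace X] [T2Space X] [CompactSpace X] [ConnectedSpace X]
    [MeasurableSpace X] [BorelSpace X] [TopologicalSpace Y] [T2Space Y] [CompactSpace Y]
    [ConnectedSpace Y] [MeasurableSpace Y] [BorelSpace Y] {c : X → K.Ch n X} {c' : Y → K.Ch n Y}
    (hc : K.Atl A c) (hc' : K.Atl A c') (f : C(Y, X)) (hf : Hol A c' c f) (y0 : Y)
    (ham : Nonempty (GMean (FundamentalGroup.map f y0).ker))
    {g : Y → (Fin n → ℝ) → Matrix (Fin n) (Fin n) ℝ}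
    {g0 : X → (Fin n → ℝ) → Matrix (Fin n) (Fin n) ℝ}
    {μ : Measure Y} {μ0 : Measure X} (hg : K.Herm A c' g) (hμ : K.Vol c' g μ)
    (hg0 : K.Herm A c g0) (hμ0 : K.Vol c g0 μ0)
    (hR : ∀ a p x, K.At (c a) p x → (g0 a x + K.ric (g0 a) x).PosSemidef) {q : Y → ℝ}
    (hq : RelJ c c' f g g0 q) :
    K.sv c' ≤ ENNReal.ofReal (J.kap n ^ n) * ∫⁻ p, ENNReal.ofReal (q p) ∂μ := by
  have hn1 : 1 ≤ n := by omega
  have hJ : J.Atl c := H959.atl hA hc hg0
  have hJ' : J.Atl c' := H959.atl hA hc' hg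
  have hM : J.Met c g0 := H959.met hc hg0
  have hM' : J.Met c' g := H959.met hc' hg
  have hV : J.Vol c g0 μ0 := H959.vol hμ0
  have hV' : J.Vol c' g μ := H959.vol hμ
  have hqc : Continuous q := hq.1
  obtain ⟨I, fI, ⟨B⟩⟩ := Vale.Agent.P223.X.hu.box n X c hJ
  obtain ⟨d, hd⟩ := hB.globd n X I c B g0 μ0
    (Measure.map f (μ.withDensity fun p => ENNReal.ofReal (q p))) hJ hM hV
    (hB.locd n X Y I c c' B f g g0 μ μ0 q hn1 hJ hJ' hM hM' hV hV'
      (fun a b x hx hx' => ⟨Asm.hol_smooth hf a b x hx hx', hol_det hA hf a b x hx hx'⟩) hq)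
  have hqA : ∀ h : X → ℝ≥0∞, Measurable h →
      ∫⁻ p, h (f p) * ENNReal.ofReal (q p) ∂μ = d * ∫⁻ x, h x ∂μ0 := by
    intro h hh
    have e1 : ∫⁻ x, h x ∂(Measure.map f (μ.withDensity fun p => ENNReal.ofReal (q p))) =
        d * ∫⁻ x, h x ∂μ0 := by
      rw [hd, lintegral_smul_measure]; rfl
    rw [← e1, lintegral_map hh f.continuous.measurable,
      lintegral_withDensity_eq_lintegral_mul_non_measurable]
    · exact lintegral_congr fun m => mul_comm (h (f m)) (ENNReal.ofReal (q m))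
    · exact hqc.measurable.ennreal_ofReal
    · exact Filter.Eventually.of_forall fun _ => ENNReal.ofReal_lt_top
  have hq1 : ∫⁻ p, ENNReal.ofReal (q p) ∂μ = d * μ0 Set.univ := by
    have e1 := hqA (fun _ => 1) measurable_const
    simpa only [one_mul, lintegral_one] using e1
  rw [hq1]
  exact Asm4.sv_le hB.c hn hA hc hc' f hf y0 ham hg hμ hg0 hμ0 hR hq fun h hh => (hqA h hh).le

theorem main (hB : Blk) {m : ℕ} (hm : 2 ≤ m) {X : Type} [TopologicalSpace X] [T2Space X]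
    [CompactSpace X] [ConnectedSpace X] [ChartedSpace (P272.K.Cm m) X]
    [IsManifold 𝓘(ℂ, P272.K.Cm m) ω X]
    {w : P272.K.Chart m X → P272.K.Cm m → Matrix (Fin m) (Fin m) ℂ} (hw : P272.K.IsKahler w)
    (hnef : P272.K.NefCanonical w 0)
    {φ : P272.K.Chart m X → P272.K.Cm m → ℝ} (hφ : P272.K.IsCanonicalMetric φ) : ∃ I : ℝ, 0 ≤ I ∧
    P272.K.IsIntegral (fun e z => (P272.K.cHess (φ e) z).det.re) I ∧
    ∀ (Y : Type) [TopologicalSpace Y] [T2Space Y] [CompactSpace Y] [ConnectedSpace Y]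
    [MeasurableSpace Y] [BorelSpace Y] (c' : Y → K.Ch (m + m) Y), K.Atl (H959.stdJ m) c' →
    ∀ f : C(Y, X), Hol (H959.stdJ m) c' (H959.realAtlas m X) f →
    ∀ y0 : Y, Nonempty (GMean (FundamentalGroup.map f y0).ker) →
    ∀ (g : Y → (Fin (m + m) → ℝ) → Matrix (Fin (m + m)) (Fin (m + m)) ℝ),
    K.Herm (H959.stdJ m) c' g → ∀ μ : Measure Y, K.Vol c' g μ →
    K.sv c' ≤ ENNReal.ofReal (J.kap (m + m) ^ (m + m)) * K.I c' g μ ∧
    ∀ d : ℕ, DegEq c' (H959.realAtlas m X) f d →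
    K.sv c' ≤ ENNReal.ofReal (J.kap (m + m) ^ (m + m)) * (d * ENNReal.ofReal (2 ^ m * I)) := by
  have hTot := H959.specTot_of H209.specLeb
  obtain ⟨I, h0, h1, -⟩ := H959.sv_le_adjoint H959.blocks hTot hm hw
    H959.closed_zero.isClosedForm (H959.nefForm_zero hw) (H959.nefAdjoint_zero hnef) hφ
  have h1' : P272.K.IsIntegral (fun e z => (P272.K.cHess (φ e) z).det.re) I := by
    simpa only [add_zero] using h1
  refine ⟨I, h0, h1', ?_⟩
  intro Y _ _ _ _ _ _ c' hY f hf y0 ham g hg μ hμ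
  let _ : MeasurableSpace X := borel X
  have : BorelSpace X := ⟨rfl⟩
  have hn4 : 4 ≤ m + m := by omega
  have hJ := H959.blocks.alg.sqr m
  have hk : 0 < J.kap (m + m) := by
    have h1 : (4 : ℝ) ≤ ((m + m : ℕ) : ℝ) := by exact_mod_cast hn4
    have h2 : 0 ≤ √((m + m : ℕ) : ℝ) := Real.sqrt_nonneg _
    unfold J.kap
    linarith only [h1, h2]
  set κ : ℝ≥0∞ := ENNReal.ofReal (J.kap (m + m) ^ (m + m)) with hκ
  have hκ0 : κ ≠ 0 := (ENNReal.ofReal_pos.mpr (pow_pos hk _)).ne'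
  have hκt : κ ≠ ⊤ := ENNReal.ofReal_ne_top
  refine ⟨?_, fun d hd => ?_⟩
  · have h7 : K.sv c' / κ ≤ K.I c' g μ := by
      refine hB.holo (m + m) (by omega) (H959.stdJ m) hJ X Y (H959.realAtlas m X) c' (H959.realG w)
        g μ f _ (H959.blocks.atl m X) hY (H959.blocks.herm m X w hw.toIsHermitian) hg hμ hf ?_
      intro eta heta
      obtain ⟨g0, μ0, e1, e2, e3, e4, e5⟩ := H959.yau H959.blocks hw hnef eta heta
      refine ⟨g0, μ0, e1, e2, e3, e5, fun q hq => ENNReal.div_le_of_le_mul' ?_⟩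
      exact sv_le hB hn4 hJ (H959.blocks.atl m X) hY f hf y0 ham hg hμ e1 e5 e4 hq
    calc K.sv c' = κ * (K.sv c' / κ) := (ENNReal.mul_div_cancel hκ0 hκt).symm
      _ ≤ κ * K.I c' g μ := mul_le_mul_right h7 _
  · have key : ∀ ε : ℝ, 0 < ε → K.sv c' ≤ κ * (d * (ENNReal.ofReal (2 ^ m * I) +
        ENNReal.ofReal ε)) := by
      intro ε hε
      obtain ⟨g0, μ0, e1, e2, e3, e4⟩ := H187.yauV hm hw hnef hφ h1' ε hε
      obtain ⟨q, hq1, hq2, hq3, hq4⟩ := H187.main (m + m) (H959.stdJ m) X Y (H959.realAtlas m X) c'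
        f d g g0 μ μ0 hJ (H959.blocks.atl m X) hY hg e1 hμ e3 hf hd
      have e5 := Asm4.sv_le (d := (d : NNReal)) hB.c hn4 hJ (H959.blocks.atl m X) hY f hf y0 ham
        hg hμ e1 e3 e2 ⟨hq1, hq2, hq4⟩ (by
          intro h hh
          rw [ENNReal.coe_natCast]
          exact hq3 h hh)
      rw [ENNReal.coe_natCast] at e5
      refine e5.trans ?_
      gcongr
    have hc : Filter.Tendsto (fun ε : ℝ => κ * (d * (ENNReal.ofReal (2 ^ m * I) +
        ENNReal.ofReal ε))) (𝓝[>] 0) (𝓝 (κ * (d * (ENNReal.ofReal (2 ^ m * I) +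
        ENNReal.ofReal 0)))) := by
      refine Filter.Tendsto.mono_left ?_ nhdsWithin_le_nhds
      refine ENNReal.Tendsto.const_mul (ENNReal.Tendsto.const_mul (tendsto_const_nhds.add
        (ENNReal.continuous_ofReal.tendsto 0)) (Or.inr (ENNReal.natCast_ne_top d))) (Or.inr hκt)
    rw [ENNReal.ofReal_zero, add_zero] at hc
    refine ge_of_tendsto hc ?_
    filter_upwards [self_mem_nhdsWithin] with ε hε using key ε hε

end Vale.Agent.P223.R2.H84.Fin4
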